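import Vale.Agent.P284.H553.PT.Loc2
import Vale.Agent.P284.H366.PT.LocB

/-!
# P284 (helper553), POT: `LocPotStmt`
-/

open scoped Manifold ContDiff Topology InnerProductSpace ComplexConjugate ENNReal Matrix
open Filter Set MeasureTheory Metric

noncomputable section

set_option linter.unusedSectionVars false

namespace Vale.Agent.P284.H553.PT

open Vale.Agent.P272.K Vale.Agent.P272.K.INT Vale.Agent.P284.H513.V Vale.Agent.P284.H894
  Vale.Agent.P284.H894.G Vale.Agent.P284.H894.V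
  Vale.Agent.P284.H894.W Vale.Agent.P284.H402.A Vale.Agent.P284.H402.B Vale.Agent.P284.H551
  Vale.Agent.P284.H366 Vale.Agent.P284.H366.PT

section
variable {n : ℕ} {Γ : Type} [Group Γ] {C : Coc n Γ} {f : Γ → C.I → Cm n → ℝ}

theorem PhiF_cd (hf : IsTst C f) (γ : Γ) (a : C.I) {z : Cm n} (hz : z ∈ C.Ω a) :
    ContDiffAt ℝ 1 (PhiF hf γ a) z :=
  vec_contDiffAt (S := hf.fin.toFinset) (k := 1) (z := z)
    (f := fun g z => ((f g a z : ℝ) : ℂ)) γ fun g _ =>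
    (Complex.ofRealCLM.contDiff.contDiffAt.comp _
      ((hf.smooth g a z hz).of_le (by exact_mod_cast le_top)))

/-- the test function in other coordinates is of class `C¹` near the origin -/
theorem PhiF_chi {z₁ : Cm n} {a : C.I} (hz : z₁ ∈ C.Ω a) {χ : Cm n → Cm n} (hχ : AnalyticAt ℂ χ 0)
    (hχ0 : χ 0 = z₁) : ∃ ρ > 0, ∀ x ∈ ball (0 : Cm n) ρ,
      ∀ (f : Γ → C.I → Cm n → ℝ) (hf : IsTst C f) (γ : Γ),
        ContDiffAt ℝ 1 (fun x => PhiF hf γ a (χ x)) x := by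
  have h1 : Tendsto χ (𝓝 0) (𝓝 z₁) := by
    have := hχ.continuousAt.tendsto
    rwa [hχ0] at this
  have h2 : ∀ᶠ x in 𝓝 (0 : Cm n), χ x ∈ C.Ω a ∧ AnalyticAt ℂ χ x :=
    (h1.eventually (isOpen_ball.mem_nhds hz)).and hχ.eventually_analyticAt
  obtain ⟨ρ, hρ, h3⟩ := Metric.eventually_nhds_iff_ball.1 h2
  refine ⟨ρ, hρ, fun x hx f hf γ => ?_⟩
  obtain ⟨h4, h5⟩ := h3 x hx
  exact (PhiF_cd hf γ a h4).comp x (h5.contDiffAt.restrict_scalars ℝ)

end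

theorem locPot : LocPotStmt := by
  intro n X _ _ _ _ _ _ w hw E Γ _ _ _ _ p hG C D K hKw q F c B hF hc hreg f hf U hT Dm γ a z₁ hz
    hsu
  have hz₁ : z₁ ∈ C.Ω a := V_sub_Ω C a (Dm.Q_sub a hz)
  set t := Fc D F γ a with ht
  have htan : AnalyticAt ℂ t z₁ := Fc_an hG D hF γ hz₁
  obtain ⟨T, χ, hχ⟩ := exists_chi htan hsu
  obtain ⟨ρ, hρ, hcd⟩ := PhiF_chi hz₁ hχ.χan hχ.χ0
  have hv := (vert_appr hG D K hKw hF hc hreg hf hT Dm γ a hz hχ
    (e := rinv (fderiv ℂ t z₁)) (L_rinv hsu)).self_of_nhds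
  obtain ⟨b, r, hr, hb⟩ := locB n q (fun _ => L2 Γ) U (fderiv ℂ t z₁) hsu
    (fun k x => PhiF (hf k) γ a (χ x)) ρ hρ (fun k x hx => hcd x hx _ (hf k) γ)
    fun v hv0 => by
      obtain ⟨w, hw, -⟩ := hv v hv0
      exact ⟨w, hw⟩
  refine ⟨fun k s => b k (s - t z₁), ?_⟩
  filter_upwards [hχ.tT.eventually (ball_mem_nhds 0 hr), hχ.Tan.eventually_analyticAt, hχ.Tbij,
    hχ.χT.eventually_nhds] with z h1 h2 h3 h4
  obtain ⟨V, hV⟩ := hb (T z) h1
  have h5 := H213.PT.compStmt n (fun _ => L2 Γ) U T z h2 h3 _ _ hV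
  refine ⟨fun k y => V k (T y), h5.congr (Eventually.of_forall fun y k => rfl) ?_⟩
  filter_upwards [h4] with y hy k
  rw [hy, hχ.eq y]

end Vale.Agent.P284.H553.PT
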