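import Vale.Agent.P284.H837.Br2

/-!
# P284 (helper553), POT: straightening of a submersion
-/

open scoped ContDiff Topology
open Filter Set Metric

noncomputable section

namespace Vale.Agent.P284.H553.PT

open Vale.Agent.P272.K Vale.Agent.P284.H837

/-- `T` straightens the submersion `t`: `A (T z) = t z - t z₁`, with `A` the derivative of `t` at
`z₁`. -/
structure Chi {n q : ℕ} (t : Cm n → Cm q) (z₁ : Cm n) (T χ : Cm n → Cm n) : Prop where
  Tan : AnalyticAt ℂ T z₁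
  T0 : T z₁ = 0
  χan : AnalyticAt ℂ χ 0
  χ0 : χ 0 = z₁
  χT : ∀ᶠ z in 𝓝 z₁, χ (T z) = z
  Tχ : ∀ᶠ x in 𝓝 (0 : Cm n), T (χ x) = x
  eq : ∀ z, fderiv ℂ t z₁ (T z) = t z - t z₁
  Tbij : ∀ᶠ z in 𝓝 z₁, Function.Bijective (fderiv ℂ T z)
  χbij : ∀ᶠ x in 𝓝 (0 : Cm n), Function.Bijective (fderiv ℂ χ x)

theorem bij_comp {n : ℕ} {f g : Cm n → Cm n} {x : Cm n} (hf : DifferentiableAt ℂ f x)
    (hg : DifferentiableAt ℂ g (f x)) (hg' : ∀ᶠ y in 𝓝 x, g (f y) = y) :
    Function.Injective (fderiv ℂ f x) := by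
  have h1 : (fun y => g (f y)) =ᶠ[𝓝 x] id := hg'
  have h2 : (fderiv ℂ g (f x)).comp (fderiv ℂ f x) = ContinuousLinearMap.id ℂ (Cm n) := by
    rw [← fderiv_comp (𝕜 := ℂ) x (g := g) hg hf, ← fderiv_id (𝕜 := ℂ) (x := x)]
    exact h1.fderiv_eq
  intro u v huv
  have h3 := congrArg (fun L : Cm n →L[ℂ] Cm n => L u) h2
  have h4 := congrArg (fun L : Cm n →L[ℂ] Cm n => L v) h2
  simp only [ContinuousLinearMap.comp_apply, ContinuousLinearMap.id_apply] at h3 h4
  rw [← h3, ← h4, huv]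

theorem exists_chi {n q : ℕ} {t : Cm n → Cm q} {z₁ : Cm n} (ht : AnalyticAt ℂ t z₁)
    (hs : Function.Surjective (fderiv ℂ t z₁)) : ∃ T χ : Cm n → Cm n, Chi t z₁ T χ := by
  set A : Cm n →L[ℂ] Cm q := fderiv ℂ t z₁ with hA
  obtain ⟨R₀, hR₀⟩ := LinearMap.exists_rightInverse_of_surjective (A : Cm n →ₗ[ℂ] Cm q)
    (LinearMap.range_eq_top.2 hs)
  set R : Cm q →L[ℂ] Cm n := LinearMap.toContinuousLinearMap R₀ with hR
  have hAR : ∀ u, A (R u) = u := fun u => LinearMap.congr_fun hR₀ u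
  set T : Cm n → Cm n := fun z => (z - z₁) + R (t z - t z₁ - A (z - z₁)) with hT
  have hTan : AnalyticAt ℂ T z₁ := by
    refine (analyticAt_id.sub analyticAt_const).add ((R.analyticAt _).comp ?_)
    exact (ht.sub analyticAt_const).sub ((A.analyticAt _).comp (analyticAt_id.sub analyticAt_const))
  have hT0 : T z₁ = 0 := by simp [hT]
  have hTd : fderiv ℂ T z₁ = ContinuousLinearMap.id ℂ (Cm n) := by
    have h1 : HasFDerivAt T ((ContinuousLinearMap.id ℂ (Cm n)) +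
        R.comp (A - A.comp (ContinuousLinearMap.id ℂ (Cm n)))) z₁ := by
      refine ((hasFDerivAt_id z₁).sub_const z₁).add (R.hasFDerivAt.comp z₁ ?_)
      refine (ht.differentiableAt.hasFDerivAt.sub_const _).sub ?_
      exact A.hasFDerivAt.comp z₁ ((hasFDerivAt_id z₁).sub_const z₁)
    rw [h1.fderiv, ContinuousLinearMap.comp_id, sub_self, ContinuousLinearMap.comp_zero, add_zero]
  have hTb : Function.Bijective (fderiv ℂ T z₁) := by
    rw [hTd]
    exact Function.bijective_id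
  obtain ⟨χ, h1, h2, h3, h4, h5⟩ := exists_linv hTan hTb
  rw [hT0] at h1 h2 h4 h5
  have hinj : ∀ L : Cm n →L[ℂ] Cm n, Function.Injective L → Function.Bijective L := fun L h =>
    ⟨h, (LinearMap.injective_iff_surjective (f := (L : Cm n →ₗ[ℂ] Cm n))).1 h⟩
  have hTt : Tendsto T (𝓝 z₁) (𝓝 0) := by
    have := hTan.continuousAt.tendsto
    rwa [hT0] at this
  have hχt : Tendsto χ (𝓝 0) (𝓝 z₁) := by
    have := h1.continuousAt.tendsto
    rwa [h2] at this
  refine ⟨T, χ, hTan, hT0, h1, h2, h3, h4, fun z => ?_, ?_, ?_⟩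
  · rw [hT]
    simp only
    rw [map_add, hAR, add_sub_cancel]
  · filter_upwards [hTan.eventually_analyticAt, hTt.eventually h1.eventually_analyticAt,
      h3.eventually_nhds] with z a1 a2 a3
    exact hinj _ (bij_comp a1.differentiableAt a2.differentiableAt a3)
  · filter_upwards [h1.eventually_analyticAt, hχt.eventually hTan.eventually_analyticAt,
      h4.eventually_nhds] with x a1 a2 a3
    exact hinj _ (bij_comp a1.differentiableAt a2.differentiableAt a3)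

variable {n q : ℕ} {t : Cm n → Cm q} {z₁ : Cm n} {T χ : Cm n → Cm n}

theorem Chi.tT (h : Chi t z₁ T χ) : Tendsto T (𝓝 z₁) (𝓝 0) := by
  have := h.Tan.continuousAt.tendsto
  rwa [h.T0] at this

theorem Chi.tχ (h : Chi t z₁ T χ) : Tendsto χ (𝓝 0) (𝓝 z₁) := by
  have := h.χan.continuousAt.tendsto
  rwa [h.χ0] at this

/-- `t` in the straight coordinates -/
theorem Chi.t_χ (h : Chi t z₁ T χ) : ∀ᶠ x in 𝓝 (0 : Cm n), t (χ x) = t z₁ + fderiv ℂ t z₁ x := by
  filter_upwards [h.Tχ] with x hx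
  have := h.eq (χ x)
  rw [hx] at this
  rw [this, add_sub_cancel]

/-- the derivative of `t` on the images of the vectors -/
theorem Chi.dt (h : Chi t z₁ T χ) (ht : AnalyticAt ℂ t z₁) : ∀ᶠ x in 𝓝 (0 : Cm n), ∀ v,
    fderiv ℂ t (χ x) (fderiv ℂ χ x v) = fderiv ℂ t z₁ v := by
  filter_upwards [h.t_χ.eventually_nhds, h.χan.eventually_analyticAt,
    h.tχ.eventually ht.eventually_analyticAt] with x a1 a2 a3 v
  have h1 : (fun x => t (χ x)) =ᶠ[𝓝 x] fun x => t z₁ + fderiv ℂ t z₁ x := a1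
  have h2 := fderiv_comp (𝕜 := ℂ) x (g := t) a3.differentiableAt a2.differentiableAt
  have h3 : fderiv ℂ (fun x => t z₁ + fderiv ℂ t z₁ x) x = fderiv ℂ t z₁ := by
    rw [fderiv_const_add, ContinuousLinearMap.fderiv]
  have h4 : fderiv ℂ (t ∘ χ) x = fderiv ℂ t z₁ := by
    rw [← h3]
    exact h1.fderiv_eq
  rw [h2] at h4
  rw [← h4]
  rfl

end Vale.Agent.P284.H553.PT
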