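import Vale.Agent.P284.H553.PT.Loc2
import Vale.Agent.P284.H625.NS.LocForm
import Vale.Agent.P284.H221.Good

/-!
# P284 (helper553), POT: the local primitive of the limit form and the approximation of the vertical
derivatives (`PotH1` of helper619)
-/

open scoped Manifold ContDiff Topology InnerProductSpace ComplexConjugate ENNReal Matrix
open Filter Set MeasureTheory Metric

noncomputable section

set_option linter.unusedSectionVars false

namespace Vale.Agent.P284.H553.PT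

open Vale.Agent.P272.K Vale.Agent.P272.K.INT Vale.Agent.P284.H513.V Vale.Agent.P284.H894
  Vale.Agent.P284.H894.G Vale.Agent.P284.H894.V
  Vale.Agent.P284.H894.W Vale.Agent.P284.H402.A Vale.Agent.P284.H402.B Vale.Agent.P284.H551
  Vale.Agent.P284.H366 Vale.Agent.P284.H366.PT

variable {n q : ℕ} {Γ : Type} [Group Γ] {C : Coc n Γ}

/-- the matrix of a surjective linear map acts injectively -/
theorem inj_of_surj' {L : Cm n →L[ℂ] Cm q} {M : Matrix (Fin n) (Fin q) ℂ}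
    (h : ∀ ξ l, L ξ l = ∑ j, ξ j * M j l) (hs : Function.Surjective L) :
    Function.Injective M.mulVec := by
  have key : ∀ c : Fin q → ℂ, M.mulVec c = 0 → c = 0 := by
    intro c hc
    funext l
    obtain ⟨ξ, hξ⟩ := hs (Pi.single l 1)
    have h1 : ∑ r, L ξ r * c r = 0 := by
      simp only [h, Finset.sum_mul]
      rw [Finset.sum_comm]
      refine Finset.sum_eq_zero fun j _ => ?_
      have h2 := congrFun hc j
      simp only [Matrix.mulVec, dotProduct, Pi.zero_apply] at h2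
      have h3 : ∑ r, ξ j * M j r * c r = ξ j * ∑ r, M j r * c r := by
        rw [Finset.mul_sum]
        exact Finset.sum_congr rfl fun r _ => by ring
      rw [h3, h2, mul_zero]
    rw [hξ] at h1
    simpa [Pi.single_apply] using h1
  intro c d hcd
  have h1 : M.mulVec (c - d) = 0 := by
    rw [Matrix.mulVec_sub]
    exact sub_eq_zero.2 hcd
  exact sub_eq_zero.1 (key _ h1)

/-- the value of the test form on a frame of the base and a vertical vector -/
theorem Phi_snoc {f : Γ → C.I → Cm n → ℝ} (θ : HF C q) (hf : IsTst C f) (γ : Γ) (a : C.I) {y : Cm n}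
    (hy : y ∈ C.Ω a) {ξ : Fin q → Cm n} {u : Cm n}
    (hξ : ∀ i j, ∑ k, ξ i k * θ.th a y k j = if i = j then 1 else 0)
    (hu : ∀ j, ∑ k, u k * θ.th a y k j = 0) :
    (tf θ hf).Φ γ a y (Fin.snoc ξ u) =
      DH (fun y => vec hf.fin.toFinset γ fun g => (f g a y : ℂ)) y u := by
  have hd : ∀ g ∈ hf.fin.toFinset, DifferentiableAt ℝ (fun y => ((f g a y : ℝ) : ℂ)) y := fun g _ =>
    Complex.ofRealCLM.differentiableAt.comp y ((hf.smooth g a y hy).differentiableAt (by simp))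
  have h0 : DH (fun y => vec hf.fin.toFinset γ fun g => (f g a y : ℂ)) y u =
      vec hf.fin.toFinset γ fun g => DH (fun y => ((f g a y : ℝ) : ℂ)) y u :=
    vec_DH (f := fun g y => ((f g a y : ℝ) : ℂ)) γ hd u
  rw [h0, TForm.Φ_apply]
  refine vec_congr _ _ fun g _ => ?_
  rw [DH_complex]
  exact wd_snoc hξ hu

theorem potH1 (θ : HF C q) {f : ℕ → Γ → C.I → Cm n → ℝ} (hf : ∀ k, IsTst C (f k))
    {U : Ultrafilter ℕ} (h : TSeq U fun k => tf θ (hf k)) (D : MD C) (γ : Γ) (a : C.I) {z₀ : Cm n}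
    (hz : z₀ ∈ D.Q a) {Fz : Cm n → Cm q} (hFan : AnalyticAt ℂ Fz z₀)
    (hFθ : ∀ᶠ z in 𝓝 z₀, ∀ ξ l, fderiv ℂ Fz z ξ l = ∑ j, ξ j * θ.th a z j l)
    (hsu : Function.Surjective (fderiv ℂ Fz z₀)) :
    ∃ G : Cm n → WU Γ U, AnalyticAt ℂ G z₀ ∧
      (∀ᶠ z in 𝓝 z₀, H501.IsW (fderiv ℂ Fz z) (LimS D U (fun k => tf θ (hf k)) γ a z)
        (fderiv ℂ G z)) ∧
      ∀ V : Cm n → Cm n, AnalyticAt ℂ V z₀ → (∀ᶠ z in 𝓝 z₀, fderiv ℂ Fz z (V z) = 0) →
        ∃ α : ℕ → Cm n → L2 Γ, Appr (H := fun _ => L2 Γ) U z₀ α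
          (fun k z => DH (fun y => vec (hf k).fin.toFinset γ fun g => (f k g a y : ℂ)) z (V z)) ∧
          ∀ᶠ z in 𝓝 z₀, H366.mk U (fun k => α k z) = fderiv ℂ G z (V z) := by
  have hz₁ : z₀ ∈ C.Ω a := V_sub_Ω C a (D.Q_sub a hz)
  have hΩ : ∀ᶠ z in 𝓝 z₀, z ∈ C.Ω a := isOpen_ball.mem_nhds hz₁
  have hQ : ∀ᶠ z in 𝓝 z₀, z ∈ D.Q a := (D.Q_open a).mem_nhds hz
  have hsn := H221.surj_eventually hFan hsu
  obtain ⟨G, hG1, hG2⟩ := H625.rel_poincare (s := LimS D U (fun k => tf θ (hf k)) γ a) hFan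
    (LimS_analyticAt D h γ a hz)
    (hQ.mono fun z hz => LimS_closed D h (fun k => tfm_closed θ (hf k)) γ a hz)
    (by
      filter_upwards [hQ, hsn, hFθ] with z h1 h2 h3 ξ i j hij hi hj
      refine LimS_rel D θ hf h γ a h1 (inj_of_surj' h3 h2) hij (fun r => ?_) fun r => ?_
      · rw [← h3, hi]; rfl
      · rw [← h3, hj]; rfl) hsu
  refine ⟨G, hG1, hG2, fun V hV hVv => ?_⟩
  -- a frame of the base
  obtain ⟨T, χ, hχ⟩ := exists_chi hFan hsu
  set e : Fin q → Cm n := rinv (fderiv ℂ Fz z₀) with he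
  have hee : ∀ i, fderiv ℂ Fz z₀ (e i) = Pi.single i 1 := L_rinv hsu
  set Ξ : Fin (q + 1) → Cm n → Cm n :=
    fun i z => (Fin.snoc (fun i => fderiv ℂ χ (T z) (e i)) (V z) : Fin (q + 1) → Cm n) i with hΞd
  have hanχ : ∀ u, AnalyticAt ℂ (fun z => fderiv ℂ χ (T z) u) z₀ := by
    intro u
    have h1 : AnalyticAt ℂ (fderiv ℂ χ) (T z₀) := by rw [hχ.T0]; exact hχ.χan.fderiv
    have h2 : AnalyticAt ℂ (fun z => fderiv ℂ χ (T z)) z₀ := h1.comp hχ.Tan
    exact ((ContinuousLinearMap.apply ℂ (Cm n) u).analyticAt _).comp h2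
  have hΞ : ∀ i, ContDiffAt ℝ 1 (Ξ i) z₀ := by
    intro i
    refine Fin.lastCases ?_ (fun j => ?_) i
    · simp only [hΞd, Fin.snoc_last]
      exact hV.contDiffAt.restrict_scalars ℝ
    · simp only [hΞd, Fin.snoc_castSucc]
      exact (hanχ (e j)).contDiffAt.restrict_scalars ℝ
  have hfr : ∀ᶠ z in 𝓝 z₀, ∀ v, fderiv ℂ Fz z (fderiv ℂ χ (T z) v) = fderiv ℂ Fz z₀ v := by
    filter_upwards [hχ.tT.eventually (hχ.dt hFan), hχ.χT] with z h1 h2 v
    rw [← h1 v, h2]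
  have hid : fderiv ℂ (fun z : Cm n => z) z₀ = ContinuousLinearMap.id ℂ (Cm n) := fderiv_fun_id
  obtain ⟨w, hw1, hw2⟩ := appr_frame' (h.fseq D γ a) D.mol D.pos.le le_rfl
    (χ := fun z => z) (x := z₀) hz analyticAt_id (by rw [hid]; exact Function.bijective_id) Ξ hΞ
  refine ⟨w, hw1.congr (Eventually.of_forall fun y k => rfl) ?_, ?_⟩
  · filter_upwards [hΩ, hfr, hVv, hFθ] with z h1 h2 h3 h4 k
    have h5 : (fun i => Ξ i z) = Fin.snoc (fun i => fderiv ℂ χ (T z) (e i)) (V z) := rfl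
    rw [h5]
    refine Phi_snoc θ (hf k) γ a h1 (fun i j => ?_) fun j => ?_
    · rw [← h4, h2, hee, Pi.single_apply]
      simp only [eq_comm]
    · rw [← h4, h3]
      rfl
  · filter_upwards [hQ, hfr, hVv, hG2] with z h1 h2 h3 h4
    rw [hw2 z h1]
    have h5 : (fun i => Ξ i z) = Fin.snoc (fun i => fderiv ℂ χ (T z) (e i)) (V z) := rfl
    rw [h5]
    have h6 := h4.snoc (fun i => fderiv ℂ χ (T z) (e i)) h3
    rw [dL_one fun i => by rw [h2, hee], one_smul] at h6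
    exact h6

end Vale.Agent.P284.H553.PT
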