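import Vale.Agent.P284.H553.PT.Pot
import Vale.Agent.P284.H553.PT.H1
import Vale.Agent.P284.H366.PT.LocD

/-!
# P284 (helper553), POT: `LocDerStmt`
-/

open scoped Manifold ContDiff Topology InnerProductSpace ComplexConjugate ENNReal Matrix
open Filter Set MeasureTheory Metric

noncomputable section

set_option linter.unusedSectionVars false

namespace Vale.Agent.P284.H553.PT

open Vale.Agent.P272.K Vale.Agent.P272.K.INT Vale.Agent.P284.H513.V Vale.Agent.P284.H894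
  Vale.Agent.P284.H894.G Vale.Agent.P284.H894.V
  Vale.Agent.P284.H894.W Vale.Agent.P284.H402.A Vale.Agent.P284.H402.B Vale.Agent.P284.H551
  Vale.Agent.P284.H366 Vale.Agent.P284.H366.PT

/-- the real part of a holomorphic function -/
theorem re_deriv {n : ℕ} {W : Type} [NormedAddCommGroup W] [NormedSpace ℂ W]
    (J : W →SL[starRingEnd ℂ] W) {g : Cm n → W} {x : Cm n} (hg : DifferentiableAt ℂ g x) :
    DifferentiableAt ℝ (fun y => g y + J (g y)) x ∧ ∀ v,
      fderiv ℝ (fun y => g y + J (g y)) x v = fderiv ℂ g x v + J (fderiv ℂ g x v) := by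
  have hJs : ∀ (c : ℝ) (u : W), J (c • u) = c • J u := by
    intro c u
    have h := map_smulₛₗ J (c : ℂ) u
    rw [Complex.conj_ofReal, Complex.coe_smul, Complex.coe_smul] at h
    exact h
  let J' : W →L[ℝ] W := ⟨⟨⟨J, map_add J⟩, hJs⟩, J.continuous⟩
  have h1 : HasFDerivAt g ((fderiv ℂ g x).restrictScalars ℝ) x :=
    hg.hasFDerivAt.restrictScalars ℝ
  have h2 : HasFDerivAt (fun y => g y + J (g y)) ((fderiv ℂ g x).restrictScalars ℝ +
      J'.comp ((fderiv ℂ g x).restrictScalars ℝ)) x :=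
    h1.add (J'.hasFDerivAt.comp x h1)
  exact ⟨h2.differentiableAt, fun v => by rw [h2.fderiv]; rfl⟩

theorem locDer : LocDerStmt := by
  intro n X _ _ _ _ _ _ w hw E Γ _ _ _ _ p hG C D K hKw q F c B hF hc hreg f hf U hT Dm γ a z₁ hz
    hsu b V hV
  have hz₁ : z₁ ∈ C.Ω a := V_sub_Ω C a (Dm.Q_sub a hz)
  set t := Fc D F γ a with ht
  set θ := hfF hG D K hKw hF hc hreg with hθ
  have htan : AnalyticAt ℂ t z₁ := Fc_an hG D hF γ hz₁
  obtain ⟨G, hGan, hGW, -⟩ := potH1 θ hf hT Dm γ a hz htan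
    (Eventually.of_forall fun z ξ l => by
      rw [thF_apply D hc γ a]
      exact Finset.sum_congr rfl fun j _ => mul_comm _ _) hsu
  refine ⟨G, hGan, hGW.and ?_⟩
  obtain ⟨T, χ, hχ⟩ := exists_chi htan hsu
  obtain ⟨ρ, hρ, hcd⟩ := PhiF_chi hz₁ hχ.χan hχ.χ0
  set e : Fin q → Cm n := rinv (fderiv ℂ t z₁) with he
  have hee : ∀ i, fderiv ℂ t z₁ (e i) = Pi.single i 1 := L_rinv hsu
  have hv := vert_appr hG D K hKw hF hc hreg hf hT Dm γ a hz hχ (e := e) hee
  set G' : Cm n → WU Γ U := fun x => G (χ x) + cjU Γ U (G (χ x)) with hG'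
  have hGd : ∀ᶠ x in 𝓝 (0 : Cm n), DifferentiableAt ℝ G' x ∧ ∀ v, fderiv ℂ t z₁ v = 0 →
      ∃ w, Appr (H := fun _ => L2 Γ) U x w
        (fun k y => fderiv ℝ (fun x => PhiF (hf k) γ a (χ x)) y v) ∧
        fderiv ℝ G' x v = H366.mk U fun k => w k x := by
    filter_upwards [hv, hχ.tχ.eventually hGW, hχ.tχ.eventually hGan.eventually_analyticAt,
      hχ.χan.eventually_analyticAt, hχ.dt htan] with x a1 a2 a3 a4 a5
    have hcomp : HasFDerivAt (fun x => G (χ x)) ((fderiv ℂ G (χ x)).comp (fderiv ℂ χ x)) x :=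
      a3.differentiableAt.hasFDerivAt.comp x a4.differentiableAt.hasFDerivAt
    obtain ⟨b1, b2⟩ := re_deriv (cjU Γ U) hcomp.differentiableAt
    refine ⟨b1, fun v hv0 => ?_⟩
    obtain ⟨w, hw1, hw2⟩ := a1 v hv0
    refine ⟨w, hw1, ?_⟩
    have h3 := a2.snoc (fun i => fderiv ℂ χ x (e i)) (η := fderiv ℂ χ x v) (by rw [a5, hv0])
    rw [dL_one fun i => by rw [a5, hee], one_smul] at h3
    rw [hw2, h3, b2 v, hcomp.fderiv]
    rfl
  obtain ⟨ρ', hρ', hGd'⟩ := Metric.eventually_nhds_iff_ball.1 hGd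
  have hbij : Function.Bijective (fderiv ℂ χ 0) := hχ.χbij.self_of_nhds
  have hV' : Appr (H := fun _ => L2 Γ) U 0 (fun k x => V k (χ x))
      (fun k x => PhiF (hf k) γ a (χ x) - (fun k s => b k (s + t z₁)) k (fderiv ℂ t z₁ x)) := by
    have h5 := H213.PT.compStmt n (fun _ => L2 Γ) U χ 0 hχ.χan hbij V
      (fun k y => PhiF (hf k) γ a y - b k (t y)) (by rw [hχ.χ0]; exact hV)
    refine h5.congr (Eventually.of_forall fun y k => rfl) ?_
    filter_upwards [hχ.t_χ] with y hy k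
    rw [hy, add_comm (t z₁)]
  obtain ⟨ε, hε, hfin⟩ := locD n q (fun _ => L2 Γ) U (fderiv ℂ t z₁)
    (fun k x => PhiF (hf k) γ a (χ x)) 0 (min ρ ρ') (lt_min hρ hρ')
    (fun k x hx => hcd x (ball_subset_ball (min_le_left _ _) hx) _ (hf k) γ)
    (fun k s => b k (s + t z₁)) (fun k x => V k (χ x)) hV' G'
    (fun x hx => hGd' x (ball_subset_ball (min_le_right _ _) hx))
  filter_upwards [hχ.tT.eventually (ball_mem_nhds 0 hε), hχ.χT] with z h1 h2 h3
  have h4 : fderiv ℂ t z₁ (T z) = fderiv ℂ t z₁ 0 := by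
    rw [hχ.eq z, map_zero, h3, sub_self]
  have h5 := hfin (T z) h1 h4
  simp only [hG', h2, hχ.χ0] at h5
  rw [h5]
  abel

end Vale.Agent.P284.H553.PT
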