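import Vale.Agent.P284.H366.PT.Spec
import Vale.Agent.P284.H553.PT.Chi
import Vale.Agent.P272.K.T4.FibF

/-!
# P284 (helper553), POT: the derivative of the test function along the fibres
-/

open scoped Manifold ContDiff Topology InnerProductSpace ComplexConjugate ENNReal Matrix
open Filter Set MeasureTheory Metric

noncomputable section

namespace Vale.Agent.P284.H553.PT

open Vale.Agent.P272.K Vale.Agent.P284.H894 Vale.Agent.P284.H894.G Vale.Agent.P284.H894.V
  Vale.Agent.P284.H894.W Vale.Agent.P284.H402.A Vale.Agent.P284.H402.B Vale.Agent.P284.H551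
  Vale.Agent.P284.H366 Vale.Agent.P284.H366.PT

/-! ### Linear algebra -/

section
variable {n q : ℕ}

/-- the value on a frame of the base and a vertical vector -/
theorem wd_snoc {M : Matrix (Fin n) (Fin q) ℂ} {α : Fin n → ℂ} {ξ : Fin q → Cm n} {u : Cm n}
    (hξ : ∀ i j, ∑ k, ξ i k * M k j = if i = j then 1 else 0) (hu : ∀ j, ∑ k, u k * M k j = 0) :
    wd (sm M α) (Fin.snoc ξ u) = ∑ k, u k * α k := by
  rw [wd_apply, Matrix.det_succ_row _ (Fin.last q), Fin.sum_univ_castSucc, Finset.sum_eq_zero,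
    zero_add]
  · have h1 : (vm (sm M α) (Fin.snoc ξ u : Fin (q + 1) → Cm n)).submatrix (Fin.last q).succAbove
        (Fin.last q).succAbove = 1 := by
      ext i j
      simp only [Fin.succAbove_last, Matrix.submatrix_apply, vm, Matrix.of_apply,
        Fin.snoc_castSucc, sm_cast]
      rw [hξ, Matrix.one_apply]
    rw [h1, Matrix.det_one, mul_one]
    have h2 : ((-1 : ℂ)) ^ (((Fin.last q : Fin (q + 1)) : ℕ) + ((Fin.last q : Fin (q + 1)) : ℕ)) = 1 := by
      rw [← two_mul, pow_mul]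
      norm_num
    rw [h2, one_mul]
    simp only [vm, Matrix.of_apply, Fin.snoc_last, sm_last]
  · intro j _
    have h1 : vm (sm M α) (Fin.snoc ξ u : Fin (q + 1) → Cm n) (Fin.last q) j.castSucc = 0 := by
      simp only [vm, Matrix.of_apply, Fin.snoc_last, sm_cast]
      exact hu j
    rw [h1, mul_zero, zero_mul]

theorem real_deriv {f : Cm n → ℝ} {z u : Cm n} (hf : DifferentiableAt ℝ f z) :
    fderiv ℝ (fun y => (f y : ℂ)) z u =
      (∑ k, u k * pd f z k) + conj (∑ k, u k * pd f z k) := by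
  have h1 : fderiv ℝ (fun y => (f y : ℂ)) z u = ((fderiv ℝ f z u : ℝ) : ℂ) := by
    have h2 : HasFDerivAt (fun y => (f y : ℂ)) (Complex.ofRealCLM.comp (fderiv ℝ f z)) z :=
      Complex.ofRealCLM.hasFDerivAt.comp z hf.hasFDerivAt
    rw [h2.fderiv]
    rfl
  rw [h1, Vale.Agent.P272.K.T4.fderiv_real_eq hf u, Complex.add_conj]
  rfl

end

/-! ### Conjugation -/

section
variable {Γ : Type}

theorem cj_sg [Group Γ] (x : Γ) (c : ℂ) : cj Γ (sg x c) = sg x (conj c) := by
  refine co_ext fun y => ?_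
  rw [cj_apply, co_cj0]
  by_cases h : y = x
  · subst h
    rw [co_sg_same, co_sg_same]
  · rw [co_sg_ne h, co_sg_ne h, map_zero]

theorem cj_vec [Group Γ] (S : Finset Γ) (γ : Γ) (c : Γ → ℂ) :
    cj Γ (vec S γ c) = vec S γ fun g => conj (c g) := by
  unfold vec
  rw [map_sum]
  exact Finset.sum_congr rfl fun g _ => cj_sg _ _

theorem norm_cj_sub (u v : L2 Γ) : ‖cj Γ u - cj Γ v‖ = ‖u - v‖ := by
  rw [← map_sub, norm_cj]

/-- conjugation of approximations -/
theorem appr_cj {n : ℕ} {U : Ultrafilter ℕ} {z₀ : Cm n} {v φ : ℕ → Cm n → L2 Γ}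
    (h : Appr (H := fun _ => L2 Γ) U z₀ v φ) :
    Appr (H := fun _ => L2 Γ) U z₀ (fun k y => cj Γ (v k y)) (fun k y => cj Γ (φ k y)) := by
  obtain ⟨ρ, C, h⟩ := h
  refine ⟨ρ, C, h.pos, h.nn, fun k z hz => ?_, fun k z hz z' hz' => ?_, fun k => ?_, fun k => ?_, ?_⟩
  · rw [norm_cj]; exact h.bd k z hz
  · rw [norm_cj_sub]; exact h.lip k z hz z' hz'
  · exact (cj Γ).continuous.comp_continuousOn (h.cont k)
  · simp only [norm_cj_sub]; exact h.int k
  · simp only [norm_cj_sub]; exact h.lim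

end

/-! ### The derivative of the test function -/

section
variable {n q : ℕ} {Γ : Type} [Group Γ] {C : Coc n Γ} {f : Γ → C.I → Cm n → ℝ} (θ : HF C q)

theorem dPhi (hf : IsTst C f) (γ : Γ) (a : C.I) {y : Cm n} (hy : y ∈ C.Ω a) {ξ : Fin q → Cm n}
    {u : Cm n} (hξ : ∀ i j, ∑ k, ξ i k * θ.th a y k j = if i = j then 1 else 0)
    (hu : ∀ j, ∑ k, u k * θ.th a y k j = 0) :
    fderiv ℝ (PhiF hf γ a) y u = (tf θ hf).Φ γ a y (Fin.snoc ξ u) +
      cj Γ ((tf θ hf).Φ γ a y (Fin.snoc ξ u)) := by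
  have hd : ∀ g, DifferentiableAt ℝ (f g a) y := fun g =>
    (hf.smooth g a y hy).differentiableAt (by simp)
  have hd' : ∀ g, DifferentiableAt ℝ (fun y => ((f g a y : ℝ) : ℂ)) y := fun g =>
    Complex.ofRealCLM.differentiableAt.comp y (hd g)
  have h1 : fderiv ℝ (PhiF hf γ a) y u =
      vec hf.fin.toFinset γ fun g => fderiv ℝ (fun y => ((f g a y : ℝ) : ℂ)) y u :=
    vec_fderiv (f := fun g y => ((f g a y : ℝ) : ℂ)) γ (fun g _ => hd' g) u
  rw [h1, TForm.Φ_apply, cj_vec, ← vec_add]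
  refine vec_congr _ _ fun g _ => ?_
  rw [real_deriv (hd g)]
  have h2 : (tf θ hf).s g a y (Fin.snoc ξ u) = ∑ k, u k * pd (f g a) y k := wd_snoc hξ hu
  rw [h2]

end

end Vale.Agent.P284.H553.PT
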