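import Vale.Agent.P284.H213.PT.Comp
import Vale.Agent.P284.H553.PT.Loc1

/-!
# P284 (helper553), POT: approximations of the derivatives along the fibres
-/

open scoped Manifold ContDiff Topology InnerProductSpace ComplexConjugate ENNReal Matrix
open Filter Set MeasureTheory Metric

noncomputable section

set_option linter.unusedSectionVars false

namespace Vale.Agent.P284.H553.PT

open Vale.Agent.P272.K Vale.Agent.P272.K.INT Vale.Agent.P284.H513.V Vale.Agent.P284.H894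
  Vale.Agent.P284.H894.G Vale.Agent.P284.H894.V
  Vale.Agent.P284.H894.W Vale.Agent.P284.H402.A Vale.Agent.P284.H402.B Vale.Agent.P284.H551
  Vale.Agent.P284.H366 Vale.Agent.P284.H366.PT

section
variable {n p : ℕ} {H : ℕ → Type} [∀ k, NormedAddCommGroup (H k)]
  [∀ k, InnerProductSpace ℂ (H k)] [∀ k, CompleteSpace (H k)] {U : Ultrafilter ℕ} {c : Cm n}
  {R r δ : ℝ} {η Θ : Cm n → ℝ} {φ : ∀ k, Cm n → (Cm n [⋀^Fin p]→ₗ[ℂ] H k)}

/-- approximations for frames of class `C¹`, in other coordinates -/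
theorem appr_frame' (h : FSeq U c R φ) (m : Mol δ η Θ) (hδ : 0 ≤ δ) (hR : r + δ ≤ R)
    {χ : Cm n → Cm n} {x : Cm n} (hz : χ x ∈ ball c r) (hχ : AnalyticAt ℂ χ x)
    (hb : Function.Bijective (fderiv ℂ χ x)) (Ξ : Fin p → Cm n → Cm n)
    (hΞ : ∀ i, ContDiffAt ℝ 1 (Ξ i) x) :
    ∃ w : ∀ k, Cm n → H k, Appr U x w (fun k y => φ k (χ y) fun i => Ξ i y) ∧
      ∀ y, χ y ∈ ball c r → mk U (fun k => w k y) = SF U η φ (χ y) fun i => Ξ i y := by
  have h1 : ∀ J : Fin p → Fin n, Appr U x (fun k y => mv η (fun y => φ k y (eJ J)) (χ y))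
      (fun k y => φ k (χ y) (eJ J)) := fun J =>
    H213.PT.compStmt n H U χ x hχ hb _ _ ((h (eJ J)).appr m hδ hR hz)
  have h2 := Appr.sum (U := U) (z₀ := x) Finset.univ
    (v := fun J k y => cJ (fun i => Ξ i y) J • mv η (fun y => φ k y (eJ J)) (χ y))
    (φ := fun J k y => cJ (fun i => Ξ i y) J • φ k (χ y) (eJ J))
    fun J _ => (h1 J).smul (contDiffAt_cJ hΞ J)
  simp only [expandA] at h2
  refine ⟨_, h2, fun y hy => ?_⟩
  rw [mk_comb h m hδ hR hy Finset.univ (cJ fun i => Ξ i y) eJ, ← expandL (SF U η φ (χ y))]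
  exact Finset.sum_congr rfl fun J _ => by rw [SF_apply h m hδ hR hy]

theorem appr_frame (h : FSeq U c R φ) (m : Mol δ η Θ) (hδ : 0 ≤ δ) (hR : r + δ ≤ R)
    {χ : Cm n → Cm n} {x : Cm n} (hz : χ x ∈ ball c r) (hχ : AnalyticAt ℂ χ x)
    (hb : Function.Bijective (fderiv ℂ χ x)) (Ξ : Fin p → Cm n → Cm n)
    (hΞ : ∀ i, ContDiffAt ℝ 1 (Ξ i) x) :
    ∃ w : ∀ k, Cm n → H k, Appr U x w (fun k y => φ k (χ y) fun i => Ξ i y) ∧
      mk U (fun k => w k x) = SF U η φ (χ x) fun i => Ξ i x := by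
  obtain ⟨w, h1, h2⟩ := appr_frame' h m hδ hR hz hχ hb Ξ hΞ
  exact ⟨w, h1, h2 x hz⟩

end

section
variable {n q : ℕ} {Γ X E : Type} [Group Γ] [TopologicalSpace X] [ChartedSpace (Cm n) X]
    [IsManifold 𝓘(ℂ, Cm n) ω X]
    [TopologicalSpace E] [ConnectedSpace E] [MulAction Γ E] {p : E → X} {C : Coc n Γ}
    (hG : IsGalois Γ p) (D : ECoc p C) {F : E → Cm q} {c : Γ → Cm q}
    {w : Chart n X → Cm n → Matrix (Fin n) (Fin n) ℂ} {B : ℝ}

include hG in
theorem Fc_an (hF : HolB p w F B) (γ : Γ) {a : C.I} {z : Cm n} (hz : z ∈ C.Ω a) :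
    AnalyticAt ℂ (Fc D F γ a) z :=
  Vale.Agent.P281.MF.analyticAt_of_differentiableOn isOpen_ball
    (fun _ hy => (Fc_hol hG D hF γ hy).1.differentiableWithinAt) hz

variable (K : KM C) (hKw : ∀ a, K.w a = w (D.e a)) (hF : HolB p w F B) (hc : Eqv F c)
  (hreg : ∃ y, Reg (n := n) p F y) {f : ℕ → Γ → C.I → Cm n → ℝ} (hf : ∀ k, IsTst C (f k))
  {U : Ultrafilter ℕ}

/-- **approximation of the derivative along the fibres**, in straight coordinates -/
theorem vert_appr (h : TSeq U fun k => tf (hfF hG D K hKw hF hc hreg) (hf k)) (Dm : MD C) (γ : Γ)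
    (a : C.I) {z₁ : Cm n} (hz : z₁ ∈ Dm.Q a) {T χ : Cm n → Cm n} (hχ : Chi (Fc D F γ a) z₁ T χ)
    {e : Fin q → Cm n} (he : ∀ i, fderiv ℂ (Fc D F γ a) z₁ (e i) = Pi.single i 1) :
    ∀ᶠ x in 𝓝 (0 : Cm n), ∀ v, fderiv ℂ (Fc D F γ a) z₁ v = 0 →
      ∃ w, Appr (H := fun _ => L2 Γ) U x w
        (fun k y => fderiv ℝ (fun x => PhiF (hf k) γ a (χ x)) y v) ∧
      mk U (fun k => w k x) = LimS Dm U (fun k => tf (hfF hG D K hKw hF hc hreg) (hf k)) γ a (χ x)
          (Fin.snoc (fun i => fderiv ℂ χ x (e i)) (fderiv ℂ χ x v)) +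
        cjU Γ U (LimS Dm U (fun k => tf (hfF hG D K hKw hF hc hreg) (hf k)) γ a (χ x)
          (Fin.snoc (fun i => fderiv ℂ χ x (e i)) (fderiv ℂ χ x v))) := by
  set θ := hfF hG D K hKw hF hc hreg with hθ
  have hz₁ : z₁ ∈ C.Ω a := V_sub_Ω C a (Dm.Q_sub a hz)
  have hΩ : ∀ᶠ x in 𝓝 (0 : Cm n), χ x ∈ C.Ω a :=
    hχ.tχ.eventually (isOpen_ball.mem_nhds hz₁)
  have hdt := hχ.dt (Fc_an hG D hF γ hz₁)
  filter_upwards [hχ.tχ.eventually ((Dm.Q_open a).mem_nhds hz), hχ.χan.eventually_analyticAt,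
    hχ.χbij, hΩ.eventually_nhds, hdt.eventually_nhds, hχ.χan.eventually_analyticAt.eventually_nhds]
    with x a1 a2 a3 a4 a5 a6 v hv
  have hΞ : ∀ i : Fin (q + 1), ContDiffAt ℝ 1
      (fun y => (Fin.snoc (fun i => fderiv ℂ χ y (e i)) (fderiv ℂ χ y v) :
        Fin (q + 1) → Cm n) i) x := by
    have h0 : ∀ u : Cm n, ContDiffAt ℝ 1 (fun y => fderiv ℂ χ y u) x := by
      intro u
      have h1 : ContDiffAt ℝ 1 (fderiv ℂ χ) x := (a2.fderiv.contDiffAt).restrict_scalars ℝ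
      have := ((ContinuousLinearMap.apply ℂ (Cm n) u).restrictScalars ℝ).contDiff.contDiffAt
        (n := 1) (x := fderiv ℂ χ x)
      exact this.comp x h1
    intro i
    refine Fin.lastCases ?_ (fun j => ?_) i
    · simp only [Fin.snoc_last]
      exact h0 v
    · simp only [Fin.snoc_castSucc]
      exact h0 (e j)
  obtain ⟨w₀, hw1, hw2⟩ := appr_frame (h.fseq Dm γ a) Dm.mol Dm.pos.le le_rfl a1 a2 a3
    (fun i y => (Fin.snoc (fun i => fderiv ℂ χ y (e i)) (fderiv ℂ χ y v) :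
        Fin (q + 1) → Cm n) i) hΞ
  have hbd := hw1.bdd
  refine ⟨fun k y => w₀ k y + cj Γ (w₀ k y), ?_, ?_⟩
  · refine (hw1.add (appr_cj hw1)).congr (Eventually.of_forall fun y k => rfl) ?_
    filter_upwards [a4, a5, a6] with y b1 b2 b3 k
    have hfy : ∀ g, DifferentiableAt ℝ (fun z => ((f k g a z : ℝ) : ℂ)) (χ y) := fun g =>
      Complex.ofRealCLM.differentiableAt.comp _
        (((hf k).smooth g a (χ y) b1).differentiableAt (by simp))
    have hP : DifferentiableAt ℝ (PhiF (hf k) γ a) (χ y) := by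
      have := vec_contDiffAt (S := (hf k).fin.toFinset) (k := 1) (z := χ y)
        (f := fun g z => ((f k g a z : ℝ) : ℂ)) γ fun g _ =>
        (Complex.ofRealCLM.contDiff.contDiffAt.comp _
          (((hf k).smooth g a (χ y) b1).of_le (by exact_mod_cast le_top)))
      exact this.differentiableAt (by simp)
    have h1 : fderiv ℝ (fun x => PhiF (hf k) γ a (χ x)) y v =
        fderiv ℝ (PhiF (hf k) γ a) (χ y) (fderiv ℂ χ y v) := by
      have hχy : HasFDerivAt χ ((fderiv ℂ χ y).restrictScalars ℝ) y :=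
        b3.differentiableAt.hasFDerivAt.restrictScalars ℝ
      have := (hP.hasFDerivAt.comp y hχy).fderiv
      have h2 : (PhiF (hf k) γ a ∘ χ) = fun x => PhiF (hf k) γ a (χ x) := rfl
      rw [h2] at this
      rw [this]
      rfl
    have hsn : (fun i : Fin (q + 1) => (Fin.snoc (fun i => fderiv ℂ χ y (e i)) (fderiv ℂ χ y v) :
        Fin (q + 1) → Cm n) i) = Fin.snoc (fun i => fderiv ℂ χ y (e i)) (fderiv ℂ χ y v) := rfl
    rw [h1, hsn]
    refine (dPhi θ (hf k) γ a b1 (fun i j => ?_) fun j => ?_).symm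
    · have h3 := congrFun (b2 (e i)) j
      rw [he i, thF_apply D hc γ a] at h3
      rw [Pi.single_apply] at h3
      have h4 : ∑ k, fderiv ℂ χ y (e i) k * θ.th a (χ y) k j =
          ∑ k, thF D F a (χ y) k j * fderiv ℂ χ y (e i) k :=
        Finset.sum_congr rfl fun k _ => mul_comm _ _
      rw [h4, h3]
      simp only [eq_comm]
    · have h3 := congrFun (b2 v) j
      rw [hv, thF_apply D hc γ a] at h3
      have h4 : ∑ k, fderiv ℂ χ y v k * θ.th a (χ y) k j =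
          ∑ k, thF D F a (χ y) k j * fderiv ℂ χ y v k :=
        Finset.sum_congr rfl fun k _ => mul_comm _ _
      rw [h4, h3]
      rfl
  · have h1 : mk U (fun k => w₀ k x + cj Γ (w₀ k x)) =
        mk U (fun k => w₀ k x) + mk U (fun k => cj Γ (w₀ k x)) := by
      refine mk_add hbd ?_
      obtain ⟨M, hM⟩ := hbd
      exact ⟨M, fun k => by rw [norm_cj]; exact hM k⟩
    rw [h1, ← cjU_mk U hbd, hw2]
    rfl

end

end Vale.Agent.P284.H553.PT
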