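import Vale.Agent.P284.H553.PT.Der
import Vale.Agent.P284.H213.PT.Trans
import Vale.Agent.P284.H501.Pot.Main

/-!
# P284 (helper553), POT: `PotS`
-/

namespace Vale.Agent.P284.H553.PT

theorem potS : H366.PotS := H501.Pot.potS_of locPot locDer H213.PT.locTransStmt H213.PT.locConstStmt

end Vale.Agent.P284.H553.PT
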